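import Vale.Agent.P216.H456B.R6
import Vale.Agent.P216.H246B.R6b

/-!
# P216-B, row R6
-/

set_option linter.all false

open Set

namespace Vale.Agent.P216.H456B

/-- **R6** (the sphere). -/
theorem r6Goal : H971B.R6Goal := by
  intro M _ _ _ ρ hρ hU k _ q U hq nU cU s hs x
  obtain ⟨y, T, N0, h⟩ := r6a hρ hU hq nU cU s hs
  obtain ⟨T', h'⟩ := H246B.r6b hρ hU hq nU y x T
  exact ⟨T', N0, fun N hN => h' N (h N hN)⟩

end Vale.Agent.P216.H456B
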