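import Vale.Agent.P216.H994.EtaNeF
import Vale.Agent.P216.H456T.Round
import Vale.Agent.P216.ND.Det
import Vale.Agent.P216.B64.SCS

/-!
# P216-B, row R6 (1): the class `η` on the path spaces of the round sphere
-/

set_option linter.all false

open Set

namespace Vale.Agent.P216.H456B

open Vale.Agent.P216.Sl Vale.Agent.P216.PS Vale.Agent.P216.H456T
open Vale.Agent.P216.AS Vale.Agent.P216.B64
open Vale.Agent.P216.H971.Low (BaseZ BaseL)

section

variable {k : Type} [Field k] {M : Type} [MetricSpace M] [CompactSpace M] {n : ℕ}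

theorem sph_zero (e : M ≃ₜ Metric.sphere (0 : EuclideanSpace ℝ (Fin (n + 1))) 1) {j : ℕ}
    (h0 : j ≠ 0) (hj : j ≠ n) : BaseZ k M j := by
  intro f hf
  have h1 := (ND.rank_HU_le (k := k) (univ : Set M) j).trans (B609.rank_of_homeo e j)
  rw [if_neg h0, if_neg hj, add_zero] at h1
  have h2 : Subsingleton (HU k (univ : Set M) j) := rank_zero_iff.1 (le_antisymm h1 zero_le)
  exact cls_eq_zero.1 (Subsingleton.elim (cls (a0 M) (c0 k) f hf) 0)

theorem sph_one (hn : 1 ≤ n) (e : M ≃ₜ Metric.sphere (0 : EuclideanSpace ℝ (Fin (n + 1))) 1) :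
    BaseL k M n := by
  by_cases h : ∃ g : List M → k, CocL univ n g ∧ ¬ ExL univ n g
  · obtain ⟨g, hg, hg0⟩ := h
    exact H971.Low.baseL_of_gen (x := g) (by omega) fun f hf => ND.sph_line hn e hf hg hg0
  · simp only [not_exists, not_and, not_not] at h
    intro f f' hf hf'
    refine ⟨1, 0, Or.inl one_ne_zero, ?_⟩
    have := h f hf
    have e1 : (fun l => (1 : k) * f l + 0 * f' l) = f := by
      funext l
      ring
    rwa [e1]

end

/-- `EtaNeK` for the round sphere. -/
theorem etaNeK_sph {d : ℕ} (hd : 2 ≤ d) :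
    D337.EtaNeK (fun _ _ => True) (Rnd (EuclideanSpace ℝ (Fin (d + 1)))) d := by
  haveI := simplyConnected_sph d hd
  haveI : SimplyConnectedSpace (Rnd (EuclideanSpace ℝ (Fin (d + 1)))) :=
    simplyConnected_of_homeo (toSph (E := EuclideanSpace ℝ (Fin (d + 1))))
  obtain ⟨B, hB, hL⟩ := H971.Low.lowK (Rnd (EuclideanSpace ℝ (Fin (d + 1)))) (fun _ _ => True)
    Real.pi_pos (uniqSeg (E := EuclideanSpace ℝ (Fin (d + 1)))) d fun k _ _ =>
      ⟨fun j h0 hj => sph_zero toSph h0.ne' hj.ne, sph_one (by omega) toSph⟩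
  exact H994.etaNeK_of_low Real.pi_pos (uniqSeg (E := EuclideanSpace ℝ (Fin (d + 1)))) hd hB hL

end Vale.Agent.P216.H456B
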