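import Vale.Agent.P216.H971B.Props
import Vale.Agent.P216.H456B.SphBase
import Vale.Agent.P216.H539.MooreD
import Vale.Agent.P216.H250.ListHtpy
import Vale.Agent.P216.H779D.DegF
import Vale.Agent.P216.H977C.Mk8

/-!
# P216-B, row R6 (2): polygons, and the class `η` of `U` on the images of the paths of the sphere
-/

set_option linter.all false

open Set Finsupp BoundedContinuousFunction

namespace Vale.Agent.P216.H456B

open Vale.Agent.P216.Sl Vale.Agent.P216.PS Vale.Agent.P216.N929 Vale.Agent.P216.H977C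
open Vale.Agent.P216.H140 (eta evw)
open Vale.Agent.P216.LS (UniqSeg seg)
open Vale.Agent.P216.MV337 (pg cs cs_zero cs_succ cs_const pg_of_nonpos pg_of_ge)
open Vale.Agent.P216.MR (Good continuousOn_mo_pg pg_at)
open Vale.Agent.P216.H971B (Om0)

section Poly

variable {A M : Type} [MetricSpace A] [MetricSpace M] [CompactSpace M]

/-- The polygon through the points `f (w (i / K))`, `i ≤ n`, each piece of duration `1`. -/
noncomputable def PG (f : A → M) (K n : ℕ) (w : ℝ →ᵇ A) : ℝ →ᵇ M :=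
  mo (pg (fun i => f (w ((i : ℝ) / K))) (fun _ => 1) n)

/-- The data of the polygon map. -/
structure PD (f : A → M) (ρ η : ℝ) (K : ℕ) : Prop where
  uniq : UniqSeg M ρ
  pos : 0 < η
  le : η ≤ 1
  lt : η < ρ
  hK : 0 < K
  mod : ∀ x y, dist x y ≤ 1 / (K : ℝ) → dist (f x) (f y) ≤ η

variable {f : A → M} {ρ η : ℝ} {K S : ℕ} {a : A} {w w' : ℝ →ᵇ A}

theorem PD.good (h : PD f ρ η K) (hw : w ∈ P a a S) :
    Good ρ ((K * S : ℕ) : ℝ) (K * S) (fun i => f (w ((i : ℝ) / K))) (fun _ => 1) := by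
  have hK : (0 : ℝ) < K := by exact_mod_cast h.hK
  have hst : ∀ i : ℕ, dist (f (w ((i : ℝ) / K))) (f (w (((i + 1 : ℕ) : ℝ) / K))) ≤ η := by
    intro i
    refine h.mod _ _ ((hw.1 _ _).trans (le_of_eq ?_))
    have : (i : ℝ) / K - ((i + 1 : ℕ) : ℝ) / K = -(1 / K) := by
      push_cast
      ring
    rw [this, abs_neg, abs_of_pos (by positivity)]
  refine ⟨fun _ _ => one_pos, fun i _ => (hst i).trans_lt h.lt, fun i _ => (hst i).trans h.le,
    ?_, ?_⟩
  · rw [cs_const, mul_one]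
  · show f (w (((K * S : ℕ) : ℝ) / K)) = f (w (((0 : ℕ) : ℝ) / K))
    rw [Nat.cast_zero, zero_div, eq_left hw le_rfl, eq_right hw]
    rw [Nat.cast_mul, mul_div_cancel_left₀ _ hK.ne']

theorem PD.apply (h : PD f ρ η K) (hw : w ∈ P a a S) (u : ℝ) :
    PG f K (K * S) w u = pg (fun i => f (w ((i : ℝ) / K))) (fun _ => 1) (K * S) u :=
  (h.good hw).mo_apply h.uniq u

theorem PD.mem (h : PD f ρ η K) (hw : w ∈ P a a S) :
    PG f K (K * S) w ∈ P (f a) (f a) ((K * S : ℕ) : ℝ) := by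
  have hg := h.good hw
  have h0 : f (w (((0 : ℕ) : ℝ) / K)) = f a := by
    rw [Nat.cast_zero, zero_div, eq_left hw le_rfl]
  refine mo_mem (hg.lip h.uniq) (fun u hu => ?_) fun u hu => ?_
  · rw [pg_of_nonpos hg.pos hu, h0]
  · rw [pg_of_ge hg.pos (hg.tot.trans hu), hg.cl, h0]

theorem PD.cont (h : PD f ρ η K) (hf : Continuous f) :
    ContinuousOn (PG f K (K * S)) (P a a S) := by
  refine continuousOn_mo_pg (T := ((K * S : ℕ) : ℝ)) h.uniq (Nat.cast_nonneg _) (fun i _ => ?_)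
    (fun _ _ => continuousOn_const) fun w hw => h.good hw
  exact (hf.comp (continuous_eval_const ((i : ℝ) / (K : ℝ)))).continuousOn

/-- The polygon is close to the image of the path. -/
theorem PD.dist_le (h : PD f ρ η K) (hw : w ∈ P a a S) {σ : ℝ} (hσ : 0 ≤ σ) :
    dist (PG f K (K * S) w (K * σ)) (f (w σ)) ≤ 2 * η := by
  have hg := h.good hw
  have hK : (0 : ℝ) < K := by exact_mod_cast h.hK
  have hη := h.pos
  rcases le_or_gt (S : ℝ) σ with hS | hS
  · rw [eq_right (h.mem hw) (by push_cast; exact mul_le_mul_of_nonneg_left hS hK.le),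
      eq_right hw hS, dist_self]
    positivity
  rw [h.apply hw]
  -- the piece
  have h2 : 0 ≤ K * σ := mul_nonneg hK.le hσ
  obtain ⟨n, hn⟩ : ∃ n : ℕ, n = ⌊(K : ℝ) * σ⌋₊ := ⟨_, rfl⟩
  obtain ⟨t, ht⟩ : ∃ t : ℝ, t = K * σ - n := ⟨_, rfl⟩
  have hn1 : n < K * S := by
    rw [hn, Nat.floor_lt h2]
    push_cast
    exact mul_lt_mul_of_pos_left hS hK
  have ht0 : 0 ≤ t := by rw [ht, hn]; linarith [Nat.floor_le h2]
  have ht1 : t ≤ 1 := by rw [ht, hn]; linarith [Nat.lt_floor_add_one ((K : ℝ) * σ)]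
  have e : (K : ℝ) * σ = cs (fun _ => (1 : ℝ)) n + t * 1 := by
    rw [cs_const, ht]
    ring
  rw [e, pg_at (Δ := fun _ => (1 : ℝ)) hg.pos hn1 ⟨ht0, ht1⟩]
  have h3 : dist (f (w ((n : ℝ) / K))) (f (w (((n + 1 : ℕ) : ℝ) / K))) < ρ := hg.lt n hn1
  have h3' : dist (f (w ((n : ℝ) / K))) (f (w (((n + 1 : ℕ) : ℝ) / K))) ≤ η := by
    refine h.mod _ _ ((hw.1 _ _).trans (le_of_eq ?_))
    have : (n : ℝ) / K - ((n + 1 : ℕ) : ℝ) / K = -(1 / K) := by
      push_cast
      ring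
    rw [this, abs_neg, abs_of_pos (by positivity)]
  have h4 : dist (f (w ((n : ℝ) / K)))
      (seg (f (w ((n : ℝ) / K))) (f (w (((n + 1 : ℕ) : ℝ) / K))) t) ≤ η := by
    rw [LS.dist_left_seg h.uniq h3 ⟨ht0, ht1⟩]
    calc _ ≤ 1 * η := mul_le_mul ht1 h3' dist_nonneg zero_le_one
      _ = η := one_mul η
  have h5 : dist (f (w ((n : ℝ) / K))) (f (w σ)) ≤ η := by
    refine h.mod _ _ ((hw.1 _ _).trans ?_)
    have h6 : (n : ℝ) / K - σ = -(t / K) := by
      rw [ht]
      field_simp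
      ring
    rw [h6, abs_neg, abs_of_nonneg (div_nonneg ht0 hK.le)]
    exact div_le_div_of_nonneg_right ht1 hK.le
  rw [dist_comm] at h4
  refine (dist_triangle _ _ _).trans ((add_le_add h4 h5).trans_eq (by ring))

theorem PD.const (h : PD f ρ η K) : PG f K (K * S) (cst a) = cst (f a) := by
  ext u
  have hw : cst a ∈ P a a (S : ℝ) := cst_mem a _
  have hg := h.good hw
  show _ = f a
  rcases le_or_gt u 0 with hu | hu
  · exact eq_left (h.mem hw) hu
  rcases le_or_gt ((K * S : ℕ) : ℝ) u with hu' | hu'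
  · exact eq_right (h.mem hw) hu'
  rw [h.apply hw]
  have e : u = cs (fun _ => (1 : ℝ)) ⌊u⌋₊ + (u - ⌊u⌋₊) * 1 := by
    rw [cs_const]
    ring
  rw [e, pg_at (Δ := fun _ => (1 : ℝ)) hg.pos ((Nat.floor_lt hu.le).2 hu')
    ⟨by linarith [Nat.floor_le hu.le], by linarith [Nat.lt_floor_add_one u]⟩]
  exact LS.seg_self _ _

end Poly

section Cmp

variable {A M : Type} [MetricSpace A] [MetricSpace M] [CompactSpace M] {k : Type} [Field k]
  {f : A → M} {ρ η : ℝ} {K S : ℕ} {a : A} {q : ℕ} {U : List M → k}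

/-- `(w, σ) ↦ PG w (K σ)` -/
noncomputable def eP (f : A → M) (K n : ℕ) (p : (ℝ →ᵇ A) × ℝ) : M := PG f K n p.1 (K * p.2)

/-- `(w, σ) ↦ f (w σ)` -/
def eF (f : A → M) (p : (ℝ →ᵇ A) × ℝ) : M := f (p.1 p.2)

theorem eta_PG (h : PD f ρ η K) (nU : Nrm U) (N : ℕ) {L : ℕ} (hL : L + 1 = K * (N + 1))
    {l : List (ℝ →ᵇ A)} (hl : l ≠ []) (hm : ∀ w ∈ l, w ∈ P a a (S : ℝ)) :
    eta N U (l.map (PG f K (K * S))) =
      N929.fib (N929.mesh k (1 / ((L : ℝ) + 1)) (K * S * (N + 1)))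
        (fun m => U (m.map (eP f K (K * S)))) l := by
  have hK : (0 : ℝ) < K := by exact_mod_cast h.hK
  have hN : (0 : ℝ) < (N : ℝ) + 1 := by positivity
  have hL' : (L : ℝ) + 1 = K * (N + 1) := by exact_mod_cast hL
  rw [eta_eq N nU (b := f a) (T := ((K * S : ℕ) : ℝ)) (N' := K * S * (N + 1)) ?_ (by simpa using hl)
    fun w hw u hu => ?_]
  · have e1 : N929.mesh k (1 / ((N : ℝ) + 1)) (K * S * (N + 1)) =
        mp (fun t : ℝ => (K : ℝ) * t) (N929.mesh k (1 / ((L : ℝ) + 1)) (K * S * (N + 1))) := by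
      rw [N929.mesh, N929.mesh, map_sum]
      refine Finset.sum_congr rfl fun j _ => ?_
      unfold N929.edge
      rw [mp_single, List.map_cons, List.map_cons, List.map_nil]
      congr 2
      · rw [hL']
        field_simp
      · congr 1
        rw [hL']
        field_simp
    have e2 : (single (l.map (PG f K (K * S))) (1 : k)) =
      mp (PG f K (K * S)) (single l 1) := by rw [mp_single]
    rw [N929.fib, N929.fib, e1, e2, sh_mp, ev_mp]
    congr 1
    congr 1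
    funext m
    rw [List.map_map]
    rfl
  · rw [int_mul_mesh]
  · obtain ⟨v, hv, rfl⟩ := List.mem_map.1 hw
    exact eq_right (h.mem (hm v hv)) hu

theorem eta_F (nU : Nrm U) (hK : 0 < K) (N : ℕ) {L : ℕ} (hL : L + 1 = K * (N + 1))
    {l : List (ℝ →ᵇ A)} (hl : l ≠ []) (hm : ∀ w ∈ l, w ∈ P a a (S : ℝ)) :
    eta L (fun m => U (m.map f)) l =
      N929.fib (N929.mesh k (1 / ((L : ℝ) + 1)) (K * S * (N + 1))) (fun m => U (m.map (eF f))) l := by
  rw [eta_eq L (nU.map f) (b := a) (T := (S : ℝ)) (N' := K * S * (N + 1)) ?_ hl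
    fun w hw u hu => eq_right (hm w hw) hu]
  · congr 1
    funext m
    rw [List.map_map]
    rfl
  · rw [show K * S * (N + 1) = S * (L + 1) by rw [hL]; ring, int_mul_mesh]

/-- The comparison. -/
theorem cmp (h : PD f ρ η K) (nU : Nrm U) {εU : ℝ} (hη : 5 * η < εU)
    (cU : ∀ l : List M, l.length = q + 1 + 2 → SmL univ εU l → dl U l = 0) (N : ℕ) {L : ℕ}
    (hL : L + 1 = K * (N + 1)) :
    ∃ g : List (ℝ →ᵇ A) → k, ∀ l : List (ℝ →ᵇ A), l.length = q + 1 →
      SmL (P a a (S : ℝ)) (1 / (2 * K)) l → 1 / ((L : ℝ) + 1) ≤ 1 / (2 * K) →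
      eta L (fun m => U (m.map f)) l = eta N U (l.map (PG f K (K * S))) + dl g l := by
  have hK : (0 : ℝ) < K := by exact_mod_cast h.hK
  have hη0 := h.pos
  have hL' : (L : ℝ) + 1 = K * (N + 1) := by exact_mod_cast hL
  obtain ⟨δ, hδ⟩ : ∃ δ : ℝ, δ = 1 / ((L : ℝ) + 1) := ⟨_, rfl⟩
  have hδ0 : 0 < δ := by rw [hδ]; positivity
  set n' := K * S * (N + 1) with hn'
  set F : List ((ℝ →ᵇ A) × ℝ) → k := H250.pr (eP f K (K * S)) (eF f) U with hF
  refine ⟨fun l => (-1) ^ (q + 2) * N929.fib (N929.mesh k δ n') F l, fun l hl hs hLL => ?_⟩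
  have hne : l ≠ [] := by rintro rfl; simp at hl
  rw [eta_F nU h.hK N hL hne hs.1, eta_PG h nU N hL hne hs.1, N929.dl_smul_fun, ← hδ]
  -- the values at the ends
  have hend : ∀ b : ℝ, (b ≤ 0 ∨ (S : ℝ) ≤ b) → F (l.map fun w => (w, b)) = 0 := by
    intro b hb
    refine N929.fib_eq_zero (single_mem (P := fun t => t = [false, true]) rfl 1) fun t ht m hm => ?_
    subst ht
    have hlen := hm.1
    simp only [List.length_map, List.length_cons, List.length_nil] at hlen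
    refine Nrm_const nU (a := f a) (by rw [List.length_map]; omega) fun x hx => ?_
    obtain ⟨p, hp, rfl⟩ := List.mem_map.1 hx
    obtain ⟨w, hw, hw'⟩ := List.mem_map.1 (hm.2 p hp).1
    have h1 := hs.1 w hw
    have e1 : eP f K (K * S) (w, b) = f a := by
      rcases hb with hb | hb
      · exact eq_left (h.mem h1) (mul_nonpos_of_nonneg_of_nonpos hK.le hb)
      · exact eq_right (h.mem h1) (by push_cast; exact mul_le_mul_of_nonneg_left hb hK.le)
    have e2 : eF f (w, b) = f a := by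
      rcases hb with hb | hb
      · exact congrArg f (eq_left h1 hb)
      · exact congrArg f (eq_right h1 hb)
    rcases p with ⟨p, c⟩
    simp only at hw'
    subst hw'
    cases c
    · exact e1
    · exact e2
  have hS : (n' : ℝ) * δ = S := by
    rw [hn', show K * S * (N + 1) = S * (L + 1) by rw [hL]; ring, hδ, int_mul_mesh]
  rw [N929.dl_fib_eq (N929.mesh_Ln _ _) (N929.bd_mesh _ _) _ hne (hend _ (Or.inr hS.ge)) (hend _ (Or.inl le_rfl)),
    ← N929.fib_smul_fun]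
  -- the prism on the grid
  have hpr : N929.fib (N929.mesh k δ n') (fun m => (-1) ^ (q + 2) * dl F m) l =
      N929.fib (N929.mesh k δ n') (fun m => U (m.map (eF f)) + (-1) * U (m.map (eP f K (K * S)))) l := by
    refine N929.fib_congr (N929.mesh_mem δ n') fun t ht m hm => ?_
    obtain ⟨j, _, rfl⟩ := ht
    have hlen := hm.1
    simp only [List.length_cons, List.length_nil] at hlen
    rw [hF, H250.dl_pr (m := q + 1) (by omega) fun L' hL1 hL2 => ?_]
    · rw [← mul_assoc, ← pow_add]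
      have : q + 2 + (q + 1 + 1) = 2 * (q + 2) := by ring
      rw [this, pow_mul]
      ring
    · refine cU L' hL1 ⟨fun _ _ => mem_univ _, fun x hx y hy => ?_⟩
      -- entries of `L'`
      have key : ∀ z ∈ L', ∃ p : (ℝ →ᵇ A) × ℝ, p ∈ m ∧ dist z (f (p.1 p.2)) ≤ 2 * η := by
        intro z hz
        obtain ⟨p, hp, hp'⟩ := hL2 z hz
        obtain ⟨g1, g2, g3⟩ := gr_times hδ0 hm hp
        have g4 : (0 : ℝ) ≤ j * δ := by positivity
        refine ⟨p, hp, ?_⟩
        rcases hp' with rfl | rfl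
        · exact h.dist_le (hs.1 _ g1) (g4.trans g2)
        · rw [show eF f p = f (p.1 p.2) from rfl, dist_self]
          positivity
      obtain ⟨p, hp, hxp⟩ := key x hx
      obtain ⟨p', hp', hyp⟩ := key y hy
      obtain ⟨g1, g2, g3⟩ := gr_times hδ0 hm hp
      obtain ⟨g1', g2', g3'⟩ := gr_times hδ0 hm hp'
      have h4 : dist (p.1 p.2) (p'.1 p'.2) ≤ dist p.1 p'.1 + |p.2 - p'.2| := by
        have a1 := (hs.1 _ g1).1 p.2 p'.2
        have a2 := BoundedContinuousFunction.dist_coe_le_dist (f := p.1) (g := p'.1) p'.2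
        linarith [dist_triangle (p.1 p.2) (p.1 p'.2) (p'.1 p'.2)]
      have h5 := hs.2 p.1 g1 p'.1 g1'
      have h6 : |p.2 - p'.2| ≤ δ := by
        push_cast at g3 g3'
        rw [abs_le]
        constructor <;> nlinarith
      have h7 : dist (f (p.1 p.2)) (f (p'.1 p'.2)) ≤ η := by
        refine h.mod _ _ ?_
        have : 1 / (2 * (K : ℝ)) + 1 / (2 * K) = 1 / K := by field_simp; norm_num
        rw [← hδ] at hLL
        linarith
      have h8 := dist_triangle4 x (f (p.1 p.2)) (f (p'.1 p'.2)) y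
      rw [dist_comm y] at hyp
      linarith
  rw [hpr]
  have e1 : N929.fib (N929.mesh k δ n') (fun m => U (m.map (eF f)) + (-1) * U (m.map (eP f K (K * S)))) l =
      N929.fib (N929.mesh k δ n') (fun m => U (m.map (eF f))) l +
        (-1) * N929.fib (N929.mesh k δ n') (fun m => U (m.map (eP f K (K * S)))) l := by
    rw [← N929.fib_smul_fun]
    exact ev_add_fun _ _ _
  rw [e1]
  ring

end Cmp

section Main

variable {M : Type} [MetricSpace M] [CompactSpace M] {ρ : ℝ}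

open Vale.Agent.P216.H456T (Rnd toSph)

/-- **R6a**: the images of the loops of the round sphere, one base point. -/
theorem r6a (hρ : 0 < ρ) (hU : UniqSeg M ρ) {k : Type} [Field k] {q : ℕ} (hq : 1 ≤ q)
    {U : List M → k} (nU : Nrm U) (cU : CocL (univ : Set M) (q + 1) U)
    (s : C(Metric.sphere (0 : EuclideanSpace ℝ (Fin (q + 2))) 1, M))
    (hs : ¬ ExL univ (q + 1) (fun l => U (l.map s))) :
    ∃ (y : M) (T N0 : ℕ), ∀ N ≥ N0, ¬ ExL (Om0 M y T) q (eta N U) := by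
  haveI := B64.simplyConnected_sph (q + 1) (by omega)
  let e : Rnd (EuclideanSpace ℝ (Fin (q + 2))) ≃ₜ
    Metric.sphere (0 : EuclideanSpace ℝ (Fin (q + 2))) 1 := toSph
  haveI : SimplyConnectedSpace (Rnd (EuclideanSpace ℝ (Fin (q + 2)))) :=
    B64.simplyConnected_of_homeo e
  let f : C(Rnd (EuclideanSpace ℝ (Fin (q + 2))), M) := s.comp (e : C(_, _))
  obtain ⟨a⟩ := (inferInstance : Nonempty (Rnd (EuclideanSpace ℝ (Fin (q + 2)))))
  -- the pull back is not exact
  have hne : ¬ ExL (univ : Set (Rnd (EuclideanSpace ℝ (Fin (q + 2))))) (q + 1)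
      fun m => U (m.map f) := by
    intro h
    refine hs ?_
    have h1 := Vale.Agent.P216.H779D.ExL.comp h (⟨e.symm, e.symm.continuous⟩ : C(Metric.sphere (0 : EuclideanSpace ℝ (Fin (q + 2))) 1,
      Rnd (EuclideanSpace ℝ (Fin (q + 2)))))
    refine Vale.Agent.P216.H779D.ExL.congr' h1 fun l => ?_
    rw [List.map_map]
    congr 1
  -- the constants
  obtain ⟨εU, hεU, cU⟩ := cU
  obtain ⟨η, hη⟩ : ∃ η : ℝ, η = min 1 (min ρ εU) / 10 := ⟨_, rfl⟩
  have hm0 : 0 < min 1 (min ρ εU) := lt_min one_pos (lt_min hρ hεU)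
  have hη0 : 0 < η := by rw [hη]; positivity
  have hm1 : min 1 (min ρ εU) ≤ 1 := min_le_left _ _
  have hm2 : min 1 (min ρ εU) ≤ ρ := (min_le_right _ _).trans (min_le_left _ _)
  have hm3 : min 1 (min ρ εU) ≤ εU := (min_le_right _ _).trans (min_le_right _ _)
  obtain ⟨δ, hδ, hmod⟩ := Vale.Agent.P216.H779D.exists_modulus f hη0
  obtain ⟨K', hK'⟩ := exists_nat_one_div_lt hδ
  have D : PD f ρ η (K' + 1) := ⟨hU, hη0, by linarith, by linarith, K'.succ_pos,
    fun x y hxy => (hmod x y (hxy.trans_lt (by push_cast; exact hK'))).le⟩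
  obtain ⟨K, hK⟩ : ∃ K : ℕ, K = K' + 1 := ⟨_, rfl⟩
  rw [← hK] at D
  have hK1 : 1 ≤ K := by omega
  have hK0 : (0 : ℝ) < K := by exact_mod_cast D.hK
  have hcoc : Coc (univ : Set (Rnd (EuclideanSpace ℝ (Fin (q + 2))))) δ (q + 1)
      fun m => U (m.map f) := by
    intro l hl hs'
    rw [N929.dl_map]
    refine cU _ (by rw [List.length_map, hl]) ⟨fun _ _ => mem_univ _, fun x hx y hy => ?_⟩
    obtain ⟨x', hx', rfl⟩ := List.mem_map.1 hx
    obtain ⟨y', hy', rfl⟩ := List.mem_map.1 hy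
    exact (hmod _ _ (hs'.2 x' hx' y' hy')).trans (by linarith)
  obtain ⟨s0, hs0, hE⟩ := etaNeK_sph (d := q + 1) (by omega)
  obtain ⟨Dp, hDp, -, hj⟩ := H250.pi0 (M := Rnd (EuclideanSpace ℝ (Fin (q + 2)))) Real.pi_pos
    (H456T.uniqSeg (E := EuclideanSpace ℝ (Fin (q + 2))))
  obtain ⟨S, hS⟩ : ∃ S : ℕ, S = ⌈s0 + Dp⌉₊ := ⟨_, rfl⟩
  have hSS : s0 + Dp ≤ S := hS ▸ Nat.le_ceil _
  obtain ⟨N0, hN0⟩ := exists_nat_one_div_lt (show 0 < δ / 4 by positivity)
  refine ⟨f a, K * S, N0 + 1, fun N hN hex => ?_⟩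
  obtain ⟨L, hL⟩ : ∃ L : ℕ, L + 1 = K * (N + 1) :=
    ⟨K * (N + 1) - 1, Nat.sub_add_cancel (Nat.mul_pos D.hK N.succ_pos)⟩
  have hL' : (L : ℝ) + 1 = K * (N + 1) := by exact_mod_cast hL
  have hN1 : (N0 : ℝ) + 1 ≤ N := by exact_mod_cast hN
  have hN2 : (0 : ℝ) ≤ N0 := Nat.cast_nonneg _
  have hK2 : (1 : ℝ) ≤ K := by exact_mod_cast hK1
  have hL1 : 1 / ((L : ℝ) + 1) < δ / 4 := by
    refine lt_of_le_of_lt ?_ hN0
    refine one_div_le_one_div_of_le (by positivity) ?_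
    rw [hL']
    nlinarith
  have hL2 : 1 / ((L : ℝ) + 1) ≤ 1 / (2 * K) := by
    refine one_div_le_one_div_of_le (by positivity) ?_
    rw [hL']
    nlinarith
  have hsub : P a a s0 ⊆ P a a (S : ℝ) := P_mono (by linarith)
  have hcont := D.cont (S := S) (a := a) f.continuous
  -- the map
  have h1 : ∀ w ∈ P a a s0, PG f K (K * S) w ∈ Om0 M (f a) ((K * S : ℕ) : ℝ) := by
    intro w hw
    refine ⟨D.mem (hsub hw), ?_⟩
    have hj1 := hj a a s0 hs0 w hw (cst a) (cst_mem a s0)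
    have hj2 := H250.joinedIn_map (hj1.mono (P_mono hSS)) hcont fun v hv => D.mem hv
    rwa [D.const] at hj2
  have h2 : ∀ ε > 0, ∃ δ' > 0, ∀ w ∈ P a a s0, ∀ w' ∈ P a a s0, dist w w' < δ' →
      dist (PG f K (K * S) w) (PG f K (K * S) w') < ε := by
    intro ε hε
    have huc := (isCompact_P a a (S : ℝ)).uniformContinuousOn_of_continuous hcont
    rw [Metric.uniformContinuousOn_iff] at huc
    obtain ⟨δ', hδ', H⟩ := huc ε hε
    exact ⟨δ', hδ', fun w hw w' hw' hd => H w (hsub hw) w' (hsub hw') hd⟩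
  obtain ⟨g', hg0, ε, hε, hg'⟩ := exL_pull h1 h2 hex
  obtain ⟨g, hg⟩ := cmp (S := S) (a := a) D nU (εU := εU) (q := q) (by linarith) cU N hL
  refine hE k trivial _ δ hδ (nU.map f) hcoc hne L hL1 a a ?_
  rw [Nat.add_sub_cancel]
  refine ⟨fun l => g' l + g l, fun h => by omega, min ε (1 / (2 * K)),
    lt_min hε (by positivity), fun l hl hs' => ?_⟩
  rw [N929.dl_add_fun, ← hg' l hl (hs'.mono subset_rfl (min_le_left _ _))]
  exact hg l hl (hs'.mono hsub (min_le_right _ _)) hL2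

end Main

end Vale.Agent.P216.H456B
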